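import Vale.Agent.P141.Bdl.B1

namespace Vale.Agent.Results.P141.Unboundedness

open Vale.Agent.P141 Filter Topology
open scoped ENNReal SchwartzMap

theorem result :
    (∀ (f₁ f₂ f₃ : 𝓢(ℝ, ℂ)) (x : ℝ),
      Tendsto (fun q : ℝ × ℝ => truncTHT f₁ f₂ f₃ q.1 q.2 x) (𝓝[>] (0 : ℝ) ×ˢ atTop)
        (𝓝 (THT f₁ f₂ f₃ x))) ∧
    (∀ p₁ p₂ p₃ r : ℝ≥0∞, IsHolderTuple p₁ p₂ p₃ r →
      r < ENNReal.ofReal (Real.log 13 / Real.log (676 / 3)) → ¬ BoundedAt p₁ p₂ p₃ r) ∧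
    (∀ p₁ p₂ p₃ r : ℝ≥0∞, IsHolderTuple p₁ p₂ p₃ r →
      (2 < (1 - Real.logb 25 2) * (p₁⁻¹).toReal + (p₂⁻¹).toReal + (p₃⁻¹).toReal ∨
        2 < (p₁⁻¹).toReal + (1 - Real.logb 10 2) * (p₂⁻¹).toReal + (p₃⁻¹).toReal ∨
        2 < (p₁⁻¹).toReal + (p₂⁻¹).toReal + (1 - Real.logb 17 2) * (p₃⁻¹).toReal) →
      ¬ BoundedAt p₁ p₂ p₃ r) ∧
    (∀ r : ℝ≥0∞, 1 / 3 < r → r < 1 / 2 →
      ∃ p₁ p₂ p₃ : ℝ≥0∞, IsHolderTuple p₁ p₂ p₃ r ∧ ¬ BoundedAt p₁ p₂ p₃ r) ∧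
    (∀ p₁ p₂ p₃ r : ℝ≥0∞, IsHolderTuple p₁ p₂ p₃ r → r < 1 / 2 → BoundedAt p₁ p₂ p₃ r →
      ∀ V₁ V₂ C : ℝ, 0 < V₁ → C ^ 2 < V₁ * V₂ →
        (p₁⁻¹).toReal * Real.log ((16 * V₁ - 8 * C + V₂) / V₁) +
          (p₂⁻¹).toReal * Real.log ((16 * V₁ - 8 * C + V₂) / V₂) +
          (p₃⁻¹).toReal * Real.log ((16 * V₁ - 8 * C + V₂) / (V₁ + V₂ - 2 * C)) ≤
        Real.log ((16 * V₁ - 8 * C + V₂) ^ 2 / (V₁ * V₂ - C ^ 2))) ∧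
    (∀ p₁ p₂ p₃ r : ℝ≥0∞, IsHolderTuple p₁ p₂ p₃ r → p₁ ≠ ∞ → p₂ ≠ ∞ → p₃ ≠ ∞ → r < 1 →
      BoundedAt p₁ p₂ p₃ r → ∀ F₁ F₂ F₃ : ℤ → ℝ≥0∞,
        (∑' x, (∑' t, F₁ (x - t) * F₂ (x - 2 * t) * F₃ (x - 3 * t)) ^
            (1 / (1 / r.toReal - 1))) ^ (1 / r.toReal - 1) ≤
          (∑' z, F₁ z ^ p₁.toReal) ^ (1 / p₁.toReal) *
            (∑' z, F₂ z ^ p₂.toReal) ^ (1 / p₂.toReal) *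
            (∑' z, F₃ z ^ p₃.toReal) ^ (1 / p₃.toReal)) :=
  ⟨exists_tendsto_truncTHT, fun _ _ _ _ h hr => not_bounded_of_lt h hr, fun _ _ _ _ h hu => not_bounded_linear h hu,
    fun _ h3 h2 => exists_not_bounded h3 h2,
    fun _ _ _ _ h hr hb _ _ _ hV hΔ => region_of_boundedAt h (two_lt_of_lt_half h.r_pos hr) hb hV hΔ,
    fun _ _ _ _ h t₁ t₂ t₃ hr hb F₁ F₂ F₃ => discrete_of_boundedAt h t₁ t₂ t₃ hr hb F₁ F₂ F₃⟩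

end Vale.Agent.Results.P141.Unboundedness
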